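import Vale.Agent.P267G.Lat0
import Vale.Agent.P267N.Elk0
import Vale.Agent.P267N.Twist
import Vale.Agent.P267W.Main

/-! P267: from the intersection form to the lattice. -/

open scoped Manifold ContDiff Topology
open Filter Metric Set Matrix

noncomputable section

namespace Vale.Agent.P267

variable {X M : Type} [TopologicalSpace X] [ChartedSpace C2 X] [T2Space X] [CompactSpace X]
  [IsManifold 𝓘(ℂ, C2) ω X] [TopologicalSpace M] [ChartedSpace C2 M] [T2Space M]
  [IsManifold 𝓘(ℂ, C2) ω M] {π : M → X} {g : M ≃ₜ M}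

variable {m : ℕ} {Q : Matrix (Fin m) (Fin m) ℤ} {c : (X → X → ℂ) → Fin m → ℤ}

theorem SForm.of_cover [ConnectedSpace M] (h : IsCyclic π g) {t : M → ℝ} (ht : IsCover π g t)
    (h7 : IsClassVII X) (hF : SForm X Q c (m : ℤ)) :
    ∃ (L : Fin m → X → X → ℂ) (c1 : (X → X → ℂ) → Fin m → ℤ), HasLattice X L c1 := by
  have hK : H0 id (canon X) = ⊥ := by simpa only [pow_one] using h7.2 1 le_rfl
  have H := hF.ineq h ht.shift (fun u hu => P267W.lefschetz hK hu)
    (fun u hu pu => ht.conn_of hu pu) fun u hu pu => ht.twist hu pu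
  obtain ⟨U, h1, h2, h3⟩ := Elk.elkiesQ hF.symm hF.unit fun x => (H x).2
  exact hF.hasLattice (fun x => (H x).1) h1 h2 h3

/-- The diagonal lattice on the surface. -/
theorem SForm.base [ConnectedSpace M] (h : IsCyclic π g) (h7 : IsClassVII X)
    (hF : SForm X Q c (m : ℤ)) :
    ∃ (L : Fin m → X → X → ℂ) (c1 : (X → X → ℂ) → Fin m → ℤ), HasLattice X L c1 := by
  obtain ⟨l, hl⟩ := h.exists_lf
  rcases h.drift_pair h7.1 (hF.pairOf h hl) with ⟨t, ht⟩ | ⟨t, ht⟩
  exacts [hF.of_cover h ht h7, hF.of_cover h.inv ht h7]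

/-- The diagonal lattice on the cover. -/
theorem SForm.lattice [ConnectedSpace M] (h : IsCyclic π g) (h7 : IsClassVII X)
    (hF : SForm X Q c (m : ℤ)) : ∃ (L1 : Fin m → M → M → ℂ) (c1 : (M → M → ℂ) → Fin m → ℤ),
      IsLattice g (pull π (canon X)) L1 c1 := by
  obtain ⟨L, c1, hL⟩ := hF.base h h7
  exact hL.pull h

end Vale.Agent.P267
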