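import Vale.Agent.P267B.Main
import Vale.Agent.P267F.Bridge
import Vale.Agent.P267G.Drift
import Vale.Agent.P267N.GC

/-! P267: from the intersection form to the lattice, the formal part. -/

open scoped Manifold ContDiff Topology
open Filter Metric Set Matrix

noncomputable section

namespace Vale.Agent.P267

set_option linter.unusedSectionVars false

variable {X M : Type} [TopologicalSpace X] [ChartedSpace C2 X] [T2Space X] [CompactSpace X]
  [IsManifold 𝓘(ℂ, C2) ω X] [TopologicalSpace M] [ChartedSpace C2 M] [T2Space M]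
  [IsManifold 𝓘(ℂ, C2) ω M] {π : M → X} {g : M ≃ₜ M}

variable {l : X → X → M} {m : ℕ} {Q : Matrix (Fin m) (Fin m) ℤ} {c : (X → X → ℂ) → Fin m → ℤ}
  {e : ℤ}

theorem SForm.pairOf [ConnectedSpace M] (h : IsCyclic π g) (hl : Lf π l) (hF : SForm X Q c e) :
    PairOf g fun u v => ((c (dsc l u) ⬝ᵥ Q *ᵥ c (dsc l v) : ℤ) : ℂ) := by
  intro u v θ θ' hu pu hv pv cu cv n P ψ hP
  obtain ⟨ϑ, ϑ', r, R, φ, a1, a2, a3, a4, a5, a6, k⟩ := hl.pair h hu pu hv pv cu cv hP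
  rw [k, hF.pair _ _ ϑ ϑ' (hl.sm h hu pu) (hl.sm h hv pv) a1 a2 r R φ a3 a4 a5 a6]

theorem La_part [ConnectedSpace M] (h : IsCyclic π g) :
    ∃ (n : ℕ) (P : Fin n → OpenPartialHomeomorph M C2) (ψ : Fin n → M → ℝ),
      IsPartition g P ψ := by
  have : ConnectedSpace X := h.surj.connectedSpace h.loc.contMDiff.continuous
  obtain ⟨n, P, R, L⟩ := h.lay
  obtain ⟨ρ, hρ, -⟩ := pop_alt L.cover L.hol
  exact ⟨n, P, _, L.part h hρ⟩

/-- A connection moves along a smooth isomorphism, with the same Chern-Weil integrals. -/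
theorem La_move (h : IsCyclic π g) {u v : X → X → ℂ} (hu : IsBundle SmAt u) (hv : IsBundle SmAt v)
    (hs : ∀ p, SmAt (v p / u p) p) {θ : M → M → C2 →L[ℝ] ℂ} (hθ : IsConnection g (pull π v) θ) :
    ∃ θ', IsConnection g (pull π u) θ' ∧ ∀ (n : ℕ) (P : Fin n → OpenPartialHomeomorph M C2)
      (ψ : Fin n → M → ℝ) (ϑ : M → M → C2 →L[ℝ] ℂ), IsPartition g P ψ →
      pairing P ψ θ' ϑ = pairing P ψ θ ϑ := by
  obtain ⟨θ', h', k⟩ := hθ.equiv h.hol (h.sm_pull.2 hv) (h.sm_pull.2 hu) (h.pull_pull _)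
    (h.pull_pull _) (l := 1) (fun _ => one_ne_zero) (fun _ => rfl) fun p => by
      have k1 := (hs (π p)).inv
        (div_ne_zero (hv.ne _).self_of_nhds (hu.ne _).self_of_nhds)
      rw [inv_div] at k1
      rw [mul_one]
      exact h.sm_pi.2 k1
  refine ⟨θ', h', fun n P ψ ϑ hP => ?_⟩
  unfold pairing
  congr 1
  refine Finset.sum_congr rfl fun i _ => MeasureTheory.setIntegral_congr_fun
    (P i).open_target.measurableSet fun z hz => ?_
  simp only [k (P i) (hP.chart i).isCh z hz]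

/-- Bundles with the same Chern-Weil integrals have the same class. -/
theorem La_class [ConnectedSpace M] (h : IsCyclic π g) (hl : Lf π l) (hF : SForm X Q c e)
    (con : ∀ w : X → X → ℂ, IsBundle SmAt w → ∃ θ, IsConnection g (pull π w) θ)
    {u v : M → M → ℂ} {θ θ' : M → M → C2 →L[ℝ] ℂ} (hu : IsBundle SmAt u) (pu : pull g u = u)
    (hv : IsBundle SmAt v) (pv : pull g v = v) (cu : IsConnection g u θ)
    (cv : IsConnection g v θ') (k : ∀ (n : ℕ) (P : Fin n → OpenPartialHomeomorph M C2)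
      (ψ : Fin n → M → ℝ) (ϑ : M → M → C2 →L[ℝ] ℂ), IsPartition g P ψ →
      pairing P ψ θ ϑ = pairing P ψ θ' ϑ) : c (dsc l u) = c (dsc l v) := by
  obtain ⟨n, P, ψ, hP⟩ := La_part h
  have key : ∀ x, c (dsc l u) ⬝ᵥ Q *ᵥ x = c (dsc l v) ⬝ᵥ Q *ᵥ x := fun x => by
    obtain ⟨w, hw, rfl⟩ := hF.onto x
    obtain ⟨ϑ, hϑ⟩ := con w hw
    have a := hF.pairOf h hl u _ θ ϑ hu pu (h.sm_pull.2 hw) (h.pull_pull _) cu hϑ n P ψ hP
    have b := hF.pairOf h hl v _ θ' ϑ hv pv (h.sm_pull.2 hw) (h.pull_pull _) cv hϑ n P ψ hP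
    rw [← k n P ψ ϑ hP, a] at b
    simpa only [hl.dsc_pull, Int.cast_inj] using b
  funext j
  have := key (Q⁻¹ *ᵥ Pi.single j 1)
  simpa only [mulVec_mulVec, mul_nonsing_inv _ hF.unit, one_mulVec, dotProduct_single,
    mul_one] using this

theorem SForm.ineq [ConnectedSpace M] (h : IsCyclic π g) {t : M → ℝ}
    (ht : ∀ p, t (g p) = t p + 1) (hF : SForm X Q c e)
    (lef : ∀ u : X → X → ℂ, IsBundle SmAt u → ∃ v, IsBundle HolAt v ∧ ∀ p, SmAt (v p / u p) p)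
    (con : ∀ u : M → M → ℂ, IsBundle HolAt u → pull g u = u → ∃ θ, IsConnection g u θ)
    (twi : ∀ u : M → M → ℂ, IsBundle HolAt u → pull g u = u →
      ∃ a : ℝ, H0 g (tw t a u) = ⊥ ∧ H0 g (pull π (canon X) / tw t a u) = ⊥) (x : Fin m → ℤ) :
    (∃ v, IsBundle HolAt v ∧ c v = x) ∧ ∃ d : ℤ, d ≤ 0 ∧
      12 * d = 6 * (x ⬝ᵥ Q *ᵥ x - x ⬝ᵥ Q *ᵥ c (canon X)) + c (canon X) ⬝ᵥ Q *ᵥ c (canon X) + e := by
  obtain ⟨l, hl⟩ := h.exists_lf
  have con' : ∀ w : X → X → ℂ, IsBundle SmAt w → ∃ θ, IsConnection g (pull π w) θ := fun w hw => by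
    obtain ⟨v, hv, hs⟩ := lef w hw
    obtain ⟨θ, hθ⟩ := con _ (h.hol_pull.2 hv) (h.pull_pull _)
    obtain ⟨θ', h', -⟩ := La_move h hw hv.smooth hs hθ
    exact ⟨θ', h'⟩
  obtain ⟨u, hu, rfl⟩ := hF.onto x
  obtain ⟨v, hv, hs⟩ := lef u hu
  have hv' := h.hol_pull.2 hv
  obtain ⟨θ, hθ⟩ := con _ hv' (h.pull_pull _)
  obtain ⟨θ', h', k⟩ := La_move h hu hv.smooth hs hθ
  have e1 := La_class h hl hF con' (h.sm_pull.2 hu) (h.pull_pull _) hv'.smooth (h.pull_pull _) h'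
    hθ k
  obtain ⟨a, a1, a2⟩ := twi _ hv' (h.pull_pull _)
  have b1 : IsBundle HolAt (tw t a (pull π v)) := tw_bundle hv'
  have b2 := tw_per (a := a) ht (h.pull_pull v)
  have e2 := La_class h hl hF con' hv'.smooth (h.pull_pull _) b1.smooth b2 hθ (tw_conn hθ)
    fun _ _ _ _ _ => rfl
  rw [hl.dsc_pull] at e1 e2
  rw [hl.dsc_pull] at e1
  obtain ⟨d, d1, d2⟩ := hF.rr _ (hl.hol h b1 b2)
  refine ⟨⟨v, hv, e1.symm⟩, d, ?_, by rw [d2, ← e2, ← e1]⟩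
  have d3 := (hl.euler h b2 d1).2
  rw [a1, a2, finrank_bot] at d3
  omega

theorem SForm.hasLattice (hF : SForm X Q c (m : ℤ)) (hol : ∀ x, ∃ v, IsBundle HolAt v ∧ c v = x)
    {U : Fin m → Fin m → ℤ} (h1 : ∀ i j, U i ⬝ᵥ Q *ᵥ U j = -(if i = j then 1 else 0))
    (h2 : ∀ i, U i ⬝ᵥ Q *ᵥ c (canon X) = -1)
    (h3 : ∀ x y, x ⬝ᵥ Q *ᵥ y = -∑ i, (U i ⬝ᵥ Q *ᵥ x) * (U i ⬝ᵥ Q *ᵥ y)) :
    ∃ (L : Fin m → X → X → ℂ) (c1 : (X → X → ℂ) → Fin m → ℤ), HasLattice X L c1 := by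
  choose L hL cL using fun j => hol (U j)
  refine ⟨L, fun u j => -(U j ⬝ᵥ Q *ᵥ c u), hL, fun j => funext fun i => ?_,
    funext fun i => ?_, fun u v θ θ' hu hv cu cv n P ψ p1 p2 p3 p4 => ?_, fun u hu => ?_⟩
  · rw [cL, h1, neg_neg, Pi.single_apply]
  · rw [h2, neg_neg, Pi.one_apply]
  · rw [hF.pair u v θ θ' hu hv cu cv n P ψ p1 p2 p3 p4, h3]
    simp only [neg_mul_neg, Int.cast_neg]
  · obtain ⟨d, d1, d2⟩ := hF.rr u hu
    have k := h3 (c (canon X)) (c (canon X))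
    simp only [h2, neg_mul_neg, mul_one, Finset.sum_const, Finset.card_univ, Fintype.card_fin,
      nsmul_eq_mul] at k
    rw [k, h3 (c u) (c u), h3 (c u) (c (canon X))] at d2
    simp only [neg_mul_neg]
    convert d1 using 1
    omega

end Vale.Agent.P267
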