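import Vale.Agent.P267G.G2
import Vale.Agent.P267D.DF
import Vale.Agent.P267D.DL

/-! P267, irregularity: atlas, partition of unity, the ergodic problem. -/

open scoped Manifold ContDiff Topology
open Filter Metric Set

noncomputable section

namespace Vale.Agent.P267

set_option linter.unusedSectionVars false

variable {X : Type} [TopologicalSpace X] [ChartedSpace C2 X] [T2Space X] [CompactSpace X]
  [IsManifold 𝓘(ℂ, C2) ω X] {m : ℕ} {Q : Fin m → OpenPartialHomeomorph X C2}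
  {ρ : Fin m → X → ℝ} {a a' : X → X → ℂ} {P P' : OpenPartialHomeomorph X C2} {p : X}

theorem exists_atf (U : X → Set X) (hU : ∀ p, U p ∈ 𝓝 p) : ∃ (m : ℕ)
    (Q : Fin m → OpenPartialHomeomorph X C2) (c : Fin m → X), Atf Q ∧
      ∀ b, (Q b).source ⊆ U (c b) := by

  obtain ⟨P, hP⟩ : ∃ P : X → OpenPartialHomeomorph X C2,
      P = fun p => (chartAt C2 p).restrOpen (interior (U p)) isOpen_interior := ⟨_, rfl⟩
  obtain ⟨T, hT⟩ := isCompact_univ.elim_finite_subcover (fun x => (P x).source)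
    (fun x => OpenPartialHomeomorph.open_source _) fun x _ => mem_iUnion.2 ⟨x, by
      rw [hP]
      exact ⟨mem_chart_source C2 x, mem_interior_iff_mem_nhds.2 (hU x)⟩⟩
  refine ⟨T.card, fun a => P (T.equivFin.symm a), fun a => T.equivFin.symm a,
    ⟨fun a => ?_, fun x => ?_⟩, fun a => ?_⟩
  · rw [hP]
    exact ⟨fun q hq => (isCh_chartAt _).hol q hq.1, fun q hq => (isCh_chartAt _).sm q hq.1⟩
  · obtain ⟨y, hy, hx⟩ := mem_iUnion₂.1 (hT (mem_univ x))
    exact ⟨T.equivFin ⟨y, hy⟩, by rwa [Equiv.symm_apply_apply]⟩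
  · rw [hP]
    exact fun q hq => interior_subset hq.2

theorem Atf.exact [ConnectedSpace X] (hQ : Atf Q) : ∃ ρ, Pu Q ρ ∧ ∀ f : X → ℝ,
    (∀ b, ContDiffOn ℝ ∞ (f ∘ (Q b).symm) (Q b).target) → ∃ (u : X → ℝ) (s : ℝ),
      (∀ b, ContDiffOn ℝ ∞ (u ∘ (Q b).symm) (Q b).target) ∧
      ∀ x, pop Q ρ (fun b => u ∘ (Q b).symm) x + s = f x := by

  have h2 : ∀ a b, AnalyticOnNhd ℂ (fun z => Q b ((Q a).symm z))
      ((Q a).target ∩ (Q a).symm ⁻¹' (Q b).source) := fun a b z hz => by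
    have k := (hQ.isCh a).tr (hQ.isCh b) ((Q a).map_target hz.1) hz.2
    rwa [(Q a).right_inv hz.1] at k
  let : MeasurableSpace X := borel X
  have : BorelSpace X := ⟨rfl⟩
  obtain ⟨M, hM⟩ := P271.exists_model (n := 2) ⟨Fin m, Q, hQ.cover, h2⟩
  obtain ⟨C⟩ := P272.AL.exists_cut M
  obtain ⟨c, K, A, hc, hK, h⟩ := pop_op M C
  have key := fun f hf => erg_exact (f := f) two_pos hc hK h hf
  clear h A C
  obtain ⟨A', ρ, r1, r2, r3, r4, k, k1, k2, μ, m1⟩ := M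
  subst hM
  exact ⟨ρ, ⟨r1, r2, r3, r4⟩, key⟩

theorem exists_smooth [ConnectedSpace X] {f : X → X → ℂ}
    (hf : ∀ p, ∀ᶠ q in 𝓝 p, SmAt (f p - f q) q) : ∃ s : X → ℂ, ∀ p, SmAt (f p - s) p := by

  obtain ⟨m, Q, c, hQ, hc⟩ := exists_atf (fun p => {q | SmAt (f p - f q) q}) hf
  obtain ⟨ρ, hρ, -⟩ := hQ.exact
  refine ⟨fun q => ∑ b, ρ b q * f (c b) q, fun p => ?_⟩
  have e : (f p - fun q => ∑ b, ρ b q * f (c b) q) =
      -∑ b, (fun q => (ρ b q : ℂ)) * (f (c b) - f p) := by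
    funext q
    have h1 : ∑ b, (ρ b q : ℂ) = 1 := by exact_mod_cast hρ.sum q
    simp only [Pi.sub_apply, Pi.neg_apply, Finset.sum_apply, Pi.mul_apply, mul_sub,
      Finset.sum_sub_distrib, ← Finset.sum_mul, h1]
    ring
  rw [e]
  refine (SmAt.sum fun b _ => ?_).neg
  by_cases hp : p ∈ tsupport (ρ b)
  · exact (hQ.smAt (hρ.sm b) p).mul (hc b (hρ.supp b hp))
  · refine smAt_zero.congr ?_
    filter_upwards [notMem_tsupport_iff_eventuallyEq.1 hp] with q hq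
    simp [hq]

end Vale.Agent.P267
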