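import Vale.Agent.P267G.G1
import Vale.Agent.P267D.DH
import Vale.Agent.P267L.LT3

/-! P267, irregularity: the connection. -/

open scoped Manifold ContDiff Topology
open Filter Metric Set

noncomputable section

namespace Vale.Agent.P267

set_option linter.unusedSectionVars false

variable {X : Type} [TopologicalSpace X] [ChartedSpace C2 X] [T2Space X] [CompactSpace X]
  [IsManifold 𝓘(ℂ, C2) ω X] {m : ℕ} {Q : Fin m → OpenPartialHomeomorph X C2}
  {ρ : Fin m → X → ℝ} {a a' : X → X → ℂ} {P P' : OpenPartialHomeomorph X C2} {p : X}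

/-- The form attached to a smooth germ. -/
def G4_th (f : X → ℂ) (x : X) : C2 →L[ℝ] ℂ :=
  Complex.ofRealCLM.comp (Complex.reCLM.comp ((dAt f x).comp
    ((Complex.I • ContinuousLinearMap.id ℂ C2).restrictScalars ℝ)) + Complex.imCLM.comp (dAt f x))

theorem G4_app (f : X → ℂ) (x : X) (v : C2) :
    G4_th f x v = (((dAt f x (Complex.I • v)).re + (dAt f x v).im : ℝ) : ℂ) := rfl

theorem G4_in (hP : IsCh P) {f : X → ℂ} {z : C2} (hz : z ∈ P.target) (hf : SmAt f (P.symm z))
    (v : C2) : inChart P (G4_th f) z v = (((fderiv ℝ (f ∘ P.symm) z (Complex.I • v)).re +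
      (fderiv ℝ (f ∘ P.symm) z v).im : ℝ) : ℂ) := by
  have b := LT3_tr hP (isCh_chartAt (P.symm z)) hz (mem_chart_source C2 _)
  have c := LT3_chain (f := f) (mem_chart_source C2 _) (LT3_df hf) (P.continuousAt_symm hz)
    (LT3_rd b)
  have e : fderiv ℝ (chartAt C2 (P.symm z) ∘ P.symm) z (Complex.I • v) =
      Complex.I • fderiv ℝ (chartAt C2 (P.symm z) ∘ P.symm) z v := by
    rw [b.differentiableAt.fderiv_restrictScalars ℝ]
    simp
  rw [← c]
  simp only [ContinuousLinearMap.comp_apply, e]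
  rfl

theorem G4_ev (hP : IsCh P) {f : X → ℂ} {z : C2} (hz : z ∈ P.target) (hf : SmAt f (P.symm z))
    (v : C2) : (fun y => inChart P (G4_th f) y v) =ᶠ[𝓝 z] fun y =>
      (((fderiv ℝ (f ∘ P.symm) y (Complex.I • v)).re + (fderiv ℝ (f ∘ P.symm) y v).im : ℝ) : ℂ) := by
  filter_upwards [(P.continuousAt_symm hz).tendsto.eventually (LT3_sm hf),
    P.open_target.mem_nhds hz] with y h1 h2
  exact G4_in hP h2 h1 v

theorem G4_two (hP : IsCh P) {f : X → ℂ} {z : C2} (hz : z ∈ P.target) (hf : SmAt f (P.symm z))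
    (u v : C2) : fderiv ℝ (fun y => inChart P (G4_th f) y u) z v =
      (((fderiv ℝ (fderiv ℝ (f ∘ P.symm)) z v (Complex.I • u)).re +
        (fderiv ℝ (fderiv ℝ (f ∘ P.symm)) z v u).im : ℝ) : ℂ) := by
  have h2 := ((hP.sm _ (P.map_target hz) _).1 hf).self_of_nhds
  rw [P.right_inv hz] at h2
  have d := ((h2.fderiv_right (m := 1) (by norm_cast)).differentiableAt one_ne_zero).hasFDerivAt
  have k := Complex.ofRealCLM.hasFDerivAt.comp z
    ((Complex.reCLM.hasFDerivAt.comp z (d.clm_apply (hasFDerivAt_const (Complex.I • u) z))).add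
      (Complex.imCLM.hasFDerivAt.comp z (d.clm_apply (hasFDerivAt_const u z))))
  rw [(G4_ev hP hz hf u).fderiv_eq]
  refine (DFunLike.congr_fun k.fderiv v).trans ?_
  simp

theorem G4_hes {F : C2 → ℂ} {z : C2} (hF : ∀ᶠ y in 𝓝 z, ContDiffAt ℝ ∞ F y) (u v : C2) :
    fderiv ℝ (fderiv ℝ fun y => (F y).re) z u v = (fderiv ℝ (fderiv ℝ F) z u v).re := by
  have e : (fderiv ℝ fun y => (F y).re) =ᶠ[𝓝 z]
      ContinuousLinearMap.compL ℝ C2 ℂ ℝ Complex.reCLM ∘ fderiv ℝ F :=
    hF.mono fun y hy =>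
      (Complex.reCLM.hasFDerivAt.comp y (hy.differentiableAt (by simp)).hasFDerivAt).fderiv
  have d := ((hF.self_of_nhds.fderiv_right (m := 1) (by norm_cast)).differentiableAt
    one_ne_zero).hasFDerivAt
  rw [e.fderiv_eq, ((ContinuousLinearMap.compL ℝ C2 ℂ ℝ Complex.reCLM).hasFDerivAt.comp z d).fderiv]
  simp

theorem G4_hol {f : X → ℂ} (h : HolAt f p) : ∀ᶠ x in 𝓝 p, HolAt f x := by
  filter_upwards [((chartAt C2 p).continuousAt (mem_chart_source C2 p)).tendsto.eventually
    (AnalyticAt.eventually_analyticAt h),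
    (chartAt C2 p).open_source.mem_nhds (mem_chart_source C2 p)] with x h1 h2
  exact ((isCh_chartAt p).hol x h2 f).2 h1

theorem G4_eq {f g : X → ℂ} {x : X} (hf : SmAt f x) (hg : SmAt g x) (h : HolAt (f - g) x) :
    G4_th f x = G4_th g x := by
  have e : dAt (f - g) x = dAt f x - dAt g x := fderiv_sub (LT3_df hf) (LT3_df hg)
  refine ContinuousLinearMap.ext fun v => ?_
  have e1 : dAt (f - g) x (Complex.I • v) = Complex.I * dAt (f - g) x v := by
    rw [dAt, (AnalyticAt.differentiableAt h).fderiv_restrictScalars ℝ]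
    simp
  rw [e] at e1
  have e2 := congrArg Complex.re e1
  simp only [sub_apply, Complex.sub_re, Complex.mul_re, Complex.I_re,
    Complex.I_im, Complex.sub_im] at e2
  rw [G4_app, G4_app]
  congr 1
  linarith

theorem Fam.conn (h : Fam a) : ∃ θ : X → X → C2 →L[ℝ] ℂ, IsConnection id 1 θ ∧
    ∀ P : OpenPartialHomeomorph X C2, IsCh P → ∀ z ∈ P.target,
      wedge (curv P θ z) (curv P θ z) = (2 * dtm (rlp a P z) z : ℝ) := by
  refine ⟨fun p => G4_th (a p), ⟨fun p v => ?_, fun p => ?_, fun p => .of_forall fun x => ?_⟩,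
    fun P hP z hz => ?_⟩
  · have hp := mem_chart_source C2 p
    have h1 := G4_ev (isCh_chartAt p) (f := a p) ((chartAt C2 p).map_source hp)
      (by rw [(chartAt C2 p).left_inv hp]; exact h.sm p) v
    filter_upwards [h1.eventuallyEq_nhds, h.sm p] with z k1 k2
    have d := k2.fderiv_right (m := ∞) le_rfl
    exact (Complex.ofRealCLM.contDiff.contDiffAt.comp z
      ((Complex.reCLM.contDiff.contDiffAt.comp z (d.clm_apply contDiffAt_const)).add
        (Complex.imCLM.contDiff.contDiffAt.comp z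
          (d.clm_apply contDiffAt_const)))).congr_of_eventuallyEq k1
  · filter_upwards [h.hol p, (LT3_sm (h.sm p)).eventually_nhds] with q k1 k2
    filter_upwards [G4_hol k1, k2, LT3_sm (h.sm q)] with x m1 m2 m3
    rw [G4_eq m2 m3 m1]
    simp [dAt]
  · have e : chartAt C2 (id x) ∘ id ∘ (chartAt C2 x).symm =ᶠ[𝓝 (chartAt C2 x x)] id :=
      (chartAt C2 x).eventually_right_inverse' (mem_chart_source C2 x)
    rw [e.fderiv_eq, fderiv_id]
    rfl
  · have h2 := (hP.sm _ (P.map_target hz) _).1 (h.sm (P.symm z))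
    rw [P.right_inv hz] at h2
    have y : ∀ u v, fderiv ℝ (fderiv ℝ (a (P.symm z) ∘ P.symm)) z u v =
        fderiv ℝ (fderiv ℝ (a (P.symm z) ∘ P.symm)) z v u := fun u v =>
      (h2.self_of_nhds.isSymmSndFDerivAt (by simp; norm_cast)) _ _
    have b0 : Complex.I • bs 0 = bs 1 := by ext i; fin_cases i <;> simp [bs]
    have b1 : Complex.I • bs 1 = -bs 0 := by ext i; fin_cases i <;> simp [bs]
    have b2 : Complex.I • bs 2 = bs 3 := by ext i; fin_cases i <;> simp [bs]
    have b3 : Complex.I • bs 3 = -bs 2 := by ext i; fin_cases i <;> simp [bs]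
    have k : ∀ i j, hes (rlp a P z) z i j =
        (fderiv ℝ (fderiv ℝ (a (P.symm z) ∘ P.symm)) z (bs i) (bs j)).re :=
      fun i j => G4_hes h2 _ _
    simp only [wedge, curv, extD, G4_two hP hz (h.sm _), b0, b1, b2, b3, map_neg, k, dtm,
      Complex.neg_re, y (bs 1) (bs 0), y (bs 2) (bs 0), y (bs 3) (bs 0), y (bs 2) (bs 1),
      y (bs 3) (bs 1), y (bs 3) (bs 2)]
    push_cast
    ring

end Vale.Agent.P267
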