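import Vale.Agent.P267G.G4

/-! P267, irregularity: the integrals vanish. -/

open scoped Manifold ContDiff Topology
open Filter Metric Set

noncomputable section

namespace Vale.Agent.P267

set_option linter.unusedSectionVars false

variable {X : Type} [TopologicalSpace X] [ChartedSpace C2 X] [T2Space X] [CompactSpace X]
  [IsManifold 𝓘(ℂ, C2) ω X] {m : ℕ} {Q : Fin m → OpenPartialHomeomorph X C2}
  {ρ : Fin m → X → ℝ} {a a' : X → X → ℂ} {P P' : OpenPartialHomeomorph X C2} {p : X}

theorem G5_cd (h : Fam a) (hP : IsCh P) {z : C2} (hz : z ∈ P.target) :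
    ∀ᶠ y in 𝓝 z, ContDiffAt ℝ ∞ (rlp a P z) y := by
  have h1 := h.cd hP (P.map_target hz)
  rwa [P.right_inv hz] at h1

theorem Fam.dtm_cont (h : Fam a) (hP : IsCh P) :
    ContinuousOn (fun z => dtm (rlp a P z) z) P.target := fun z hz => by
  have h1 := h.near hP (P.map_target hz)
  rw [P.right_inv hz] at h1
  have h2 := G5_cd h hP hz
  have c : ∀ i j, ContinuousAt (fun y => hes (rlp a P z) y i j) z := fun i j =>
    ((((h2.self_of_nhds.fderiv_right (m := ∞) le_rfl).fderiv_right (m := ∞) le_rfl).clm_apply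
      contDiffAt_const).clm_apply contDiffAt_const).continuousAt
  have h3 : ContinuousAt (dtm (rlp a P z)) z :=
    ((((c _ _).add (c _ _)).mul ((c _ _).add (c _ _))).sub (((c _ _).sub (c _ _)).pow 2)).sub
      (((c _ _).add (c _ _)).pow 2)
  refine (h3.congr ?_).continuousWithinAt
  filter_upwards [h1, h2, P.open_target.mem_nhds hz] with y a1 a2 a3
  exact (dtm_congr (G5_cd h hP a3).self_of_nhds a2 a1).symm

theorem Fam.dtm_eq (h : Fam a) (hQ : Atf Q) (hρ : Pu Q ρ) (hZ : PZ X)
    (h0 : ∀ b, ∀ z ∈ (Q b).target, dtm (rlp a (Q b) z) z ≤ 0) {b : Fin m} {x : X}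
    (hx : ρ b x ≠ 0) : dtm (rlp a (Q b) (Q b x)) (Q b x) = 0 := by
  have cρ : ∀ a, Continuous (ρ a) := fun a => continuous_iff_continuousAt.2 fun x => by
    obtain ⟨b, hb⟩ := hQ.cover x
    have h1 := ((hρ.sm a b).continuousOn.continuousAt
      ((Q b).open_target.mem_nhds ((Q b).map_source hb))).comp ((Q b).continuousAt hb)
    refine h1.congr ?_
    filter_upwards [(Q b).eventually_left_inverse hb] with y hy
    simp only [Function.comp_apply, hy]
  obtain ⟨θ, t1, t2⟩ := h.conn
  have e1 : ((∑ b, ∫ z in (Q b).target,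
      ρ b ((Q b).symm z) * (2 * dtm (rlp a (Q b) z) z) : ℝ) : ℂ) = 0 := by
    have e0 := hZ θ t1 m Q ρ (fun b => (hQ.isCh b).hol) cρ hρ.supp hρ.sum
    rw [pairing] at e0
    rw [← (mul_eq_zero.1 e0).resolve_left (by simp [Real.pi_ne_zero]), Complex.ofReal_sum]
    refine Finset.sum_congr rfl fun b _ => ?_
    rw [← integral_complex_ofReal]
    refine MeasureTheory.setIntegral_congr_fun (Q b).open_target.measurableSet fun z hz => ?_
    simp only [t2 _ (hQ.isCh b) z hz, Complex.ofReal_mul]
  have e2 := Complex.ofReal_eq_zero.1 e1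
  have hle : ∀ b, ∀ z ∈ (Q b).target,
      ρ b ((Q b).symm z) * (2 * dtm (rlp a (Q b) z) z) ≤ 0 := fun b z hz =>
    mul_nonpos_of_nonneg_of_nonpos (hρ.nonneg b _) (by linarith [h0 b z hz])
  have e3 := (Finset.sum_eq_zero_iff_of_nonpos fun b _ =>
    MeasureTheory.setIntegral_nonpos (Q b).open_target.measurableSet (hle b)).1 e2 b
      (Finset.mem_univ b)
  have hc : ContinuousOn (fun z => ρ b ((Q b).symm z) * (2 * dtm (rlp a (Q b) z) z))
      (Q b).target :=
    ((cρ b).comp_continuousOn (Q b).continuousOn_symm).mul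
      (continuousOn_const.mul (h.dtm_cont (hQ.isCh b)))
  have hK : IsCompact (Q b '' tsupport (ρ b)) :=
    (isClosed_tsupport _).isCompact.image_of_continuousOn ((Q b).continuousOn.mono (hρ.supp b))
  have hKt : Q b '' tsupport (ρ b) ⊆ (Q b).target := by
    rintro _ ⟨p, hp, rfl⟩
    exact (Q b).map_source (hρ.supp b hp)
  have hi : MeasureTheory.IntegrableOn
      (fun z => ρ b ((Q b).symm z) * (2 * dtm (rlp a (Q b) z) z)) (Q b).target := by
    refine ((hc.mono hKt).integrableOn_compact hK).of_forall_sdiff_eq_zero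
      (Q b).open_target.measurableSet fun z hz => ?_
    have : ρ b ((Q b).symm z) = 0 := by
      by_contra hne
      exact hz.2 ⟨_, subset_tsupport _ hne, (Q b).right_inv hz.1⟩
    rw [this, zero_mul]
  have hae := (MeasureTheory.setIntegral_eq_zero_iff_of_nonneg_ae (f := fun z =>
    -(ρ b ((Q b).symm z) * (2 * dtm (rlp a (Q b) z) z))) (MeasureTheory.ae_restrict_of_forall_mem
      (Q b).open_target.measurableSet fun z hz => neg_nonneg.2 (hle b z hz)) hi.neg).1
    (by rw [MeasureTheory.integral_neg, e3, neg_zero])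
  have hx1 : x ∈ (Q b).source := hρ.supp b (subset_tsupport _ hx)
  have e4 := MeasureTheory.Measure.eqOn_open_of_ae_eq hae (Q b).open_target hc.neg
    continuousOn_const ((Q b).map_source hx1)
  simp only [(Q b).left_inv hx1, Pi.zero_apply, neg_eq_zero, mul_eq_zero, hx, false_or] at e4
  simpa using e4

end Vale.Agent.P267
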