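import Vale.Agent.P267G.G5

/-! P267, irregularity: solutions of the homogeneous equation are pluriharmonic. -/

open scoped Manifold ContDiff Topology
open Filter Metric Set

noncomputable section

namespace Vale.Agent.P267

set_option linter.unusedSectionVars false

variable {X : Type} [TopologicalSpace X] [ChartedSpace C2 X] [T2Space X] [CompactSpace X]
  [IsManifold 𝓘(ℂ, C2) ω X] {m : ℕ} {Q : Fin m → OpenPartialHomeomorph X C2}
  {ρ : Fin m → X → ℝ} {a a' : X → X → ℂ} {P P' : OpenPartialHomeomorph X C2} {p : X}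

theorem G6_src (hρ : Pu Q ρ) {b : Fin m} {x : X} (hx : ρ b x ≠ 0) : x ∈ (Q b).source :=
  hρ.supp b (subset_tsupport _ hx)

theorem G6_ex (hρ : Pu Q ρ) (x : X) : ∃ b, ρ b x ≠ 0 := by
  by_contra hn
  have h1 := hρ.sum x
  rw [Finset.sum_eq_zero fun b _ => not_not.1 fun hb => hn ⟨b, hb⟩] at h1
  exact zero_ne_one h1

theorem G6_trc (h : Fam a) (hQ : Atf Q) (hρ : Pu Q ρ) (h0 : ∀ x, trf Q ρ a x = 0) {d b : Fin m}
    {x : X} (hd : x ∈ (Q d).source) (hb : ρ b x ≠ 0)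
    (hs : (∀ v, 0 ≤ lev (rlp a (Q d) (Q d x)) (Q d x) v) ∨
      ∀ v, lev (rlp a (Q d) (Q d x)) (Q d x) v ≤ 0) :
    trc (rlp a (Q b) (Q b x)) (Q b x) = 0 := by
  refine (mul_eq_zero.1 ?_).resolve_left hb
  rcases hs with hs | hs
  · refine (Finset.sum_eq_zero_iff_of_nonneg fun c _ => ?_).1 (h0 x) b (Finset.mem_univ b)
    by_cases hc : ρ c x = 0
    · rw [hc, zero_mul]
    · obtain ⟨T, hT⟩ := h.levT (hQ.isCh d) (hQ.isCh c) hd (G6_src hρ hc)
      refine mul_nonneg (hρ.nonneg c x) ?_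
      rw [trc, hT, hT]
      exact add_nonneg (hs _) (hs _)
  · refine (Finset.sum_eq_zero_iff_of_nonpos fun c _ => ?_).1 (h0 x) b (Finset.mem_univ b)
    by_cases hc : ρ c x = 0
    · rw [hc, zero_mul]
    · obtain ⟨T, hT⟩ := h.levT (hQ.isCh d) (hQ.isCh c) hd (G6_src hρ hc)
      refine mul_nonpos_of_nonneg_of_nonpos (hρ.nonneg c x) ?_
      rw [trc, hT, hT]
      exact add_nonpos (hs _) (hs _)

theorem G6_dtm_le (h : Fam a) (hQ : Atf Q) (hρ : Pu Q ρ) (h0 : ∀ x, trf Q ρ a x = 0)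
    (d : Fin m) : ∀ z ∈ (Q d).target, dtm (rlp a (Q d) z) z ≤ 0 := by
  intro z hz
  obtain ⟨x, hx, rfl⟩ : ∃ x ∈ (Q d).source, Q d x = z :=
    ⟨_, (Q d).map_target hz, (Q d).right_inv hz⟩
  obtain ⟨b, hb⟩ := G6_ex hρ x
  obtain ⟨T, hT⟩ := h.levT (hQ.isCh d) (hQ.isCh b) hx (G6_src hρ hb)
  have hn : ∀ j : Fin 2, T (Pi.single j 1) ≠ 0 := fun j => by simp
  have hz0 : lev (rlp a (Q d) (Q d x)) (Q d x) 0 = 0 := by simp [lev]
  refine not_lt.1 fun hd => ?_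
  rcases dtm_def (h.cd (hQ.isCh d) hx).self_of_nhds hd with hs | hs
  · have k := G6_trc h hQ hρ h0 hx hb (Or.inl fun v => by
      rcases eq_or_ne v 0 with rfl | hv
      exacts [hz0.ge, (hs v hv).le])
    rw [trc, hT, hT] at k
    linarith [hs _ (hn 0), hs _ (hn 1)]
  · have k := G6_trc h hQ hρ h0 hx hb (Or.inr fun v => by
      rcases eq_or_ne v 0 with rfl | hv
      exacts [hz0.le, (hs v hv).le])
    rw [trc, hT, hT] at k
    linarith [hs _ (hn 0), hs _ (hn 1)]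

theorem Fam.flat (h : Fam a) (hQ : Atf Q) (hρ : Pu Q ρ) (hZ : PZ X) (h0 : ∀ x, trf Q ρ a x = 0)
    (b : Fin m) : ∀ z ∈ (Q b).target, ∀ v, lev (rlp a (Q b) z) z v = 0 := by
  intro z hz v
  obtain ⟨x, hx, rfl⟩ : ∃ x ∈ (Q b).source, Q b x = z :=
    ⟨_, (Q b).map_target hz, (Q b).right_inv hz⟩
  obtain ⟨c, hc⟩ := G6_ex hρ x
  have hx' := G6_src hρ hc
  obtain ⟨T, hT⟩ := h.levT (hQ.isCh c) (hQ.isCh b) hx' hx
  have hd := (h.cd (hQ.isCh c) hx').self_of_nhds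
  have hs := dtm_semi hd (h.dtm_eq hQ hρ hZ (G6_dtm_le h hQ hρ h0) hc).ge
  rw [hT, lev_zero hd hs (G6_trc h hQ hρ h0 hx' hc hs)]

theorem G6_ev (hP : IsCh P) (hp : p ∈ P.source) {f : X → ℂ} (hf : HolAt f p) :
    ∀ᶠ q in 𝓝 p, HolAt f q := by
  filter_upwards [(P.continuousAt hp).eventually ((hP.hol p hp f).1 hf).eventually_analyticAt,
    P.open_source.mem_nhds hp] with q h1 h2
  exact (hP.hol q h2 f).2 h1

theorem G6_const {f : X → ℂ} (hf : HolAt f p) (h : ∀ᶠ q in 𝓝 p, (f q).re = 0) :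
    ∀ᶠ q in 𝓝 p, f q = f p := by
  have e : (chartAt C2 p).symm (chartAt C2 p p) = p :=
    (chartAt C2 p).left_inv (mem_chart_source C2 p)
  have h1 := const_of_max hf ((ae_ev.1 h).mono fun z hz => by
    rw [Function.comp_apply, Function.comp_apply, hz, e, h.self_of_nhds])
  refine ae_ev.2 (h1.mono fun z hz => ?_)
  rwa [Function.comp_apply, Function.comp_apply, e] at hz

theorem Fam.split (h : Fam a) (hQ : Atf Q)
    (h0 : ∀ b, ∀ z ∈ (Q b).target, ∀ v, lev (rlp a (Q b) z) z v = 0) : ∃ H : X → X → ℂ,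
      (∀ p, HolAt (H p) p ∧ ∀ᶠ q in 𝓝 p, (H p q).re = (a p q).re) ∧ Coc (a - H) := by
  have k : ∀ p, ∃ H : X → ℂ, HolAt H p ∧ ∀ᶠ q in 𝓝 p, (H q).re = (a p q).re := fun p => by
    obtain ⟨b, hb⟩ := hQ.cover p
    obtain ⟨H, h1, h2⟩ := re_hol (F := rlp a (Q b) (Q b p)) (z := Q b p) (by
      filter_upwards [h.cd (hQ.isCh b) hb, h.near (hQ.isCh b) hb,
        (Q b).open_target.mem_nhds ((Q b).map_source hb)] with z h3 h4 h5
      exact ⟨h3, fun v => by rw [← h4 v, h0 b z h5 v]⟩)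
    refine ⟨H ∘ Q b, (hQ.isCh b).hol_fun hb h1, ?_⟩
    filter_upwards [((Q b).continuousAt hb).eventually h2, (Q b).open_source.mem_nhds hb]
      with q h3 h4
    rw [Function.comp_apply, h3, rlp, (Q b).left_inv hb, (Q b).left_inv h4]
  choose H hH hre using k
  refine ⟨H, fun p => ⟨hH p, hre p⟩, fun p => ?_⟩
  obtain ⟨b, hb⟩ := hQ.cover p
  filter_upwards [h.hol p, G6_ev (hQ.isCh b) hb (hH p), (hre p).eventually_nhds] with q h1 h2 h3
  have h4 : HolAt ((a - H) p - (a - H) q) q := by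
    refine ((h1.sub h2).add (hH q)).congr (Eventually.of_forall fun y => ?_)
    simp only [Pi.add_apply, Pi.sub_apply]
    ring
  have h5 := G6_const h4 (by
    filter_upwards [h3, hre q] with y h6 h7
    simp only [Pi.sub_apply, Complex.sub_re, h6, h7, sub_self])
  exact h5

end Vale.Agent.P267
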