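import Vale.Agent.P267G.G3
import Vale.Agent.P267D.DJ0

/-! P267, irregularity: the generator. -/

open scoped Manifold ContDiff Topology
open Filter Metric Set

noncomputable section

namespace Vale.Agent.P267

set_option linter.unusedSectionVars false

variable {X : Type} [TopologicalSpace X] [ChartedSpace C2 X] [T2Space X] [CompactSpace X]
  [IsManifold 𝓘(ℂ, C2) ω X] {m : ℕ} {Q : Fin m → OpenPartialHomeomorph X C2}
  {ρ : Fin m → X → ℝ} {a a' : X → X → ℂ} {P P' : OpenPartialHomeomorph X C2} {p : X}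

theorem G7_zc {Y : Type} [TopologicalSpace Y] {F : Y → Y → ℂ} (h : F ∈ Zc Y) : Coc F := by
  induction h using Submodule.span_induction with
  | mem x hx => exact hx
  | zero => exact fun p => Eventually.of_forall fun q => Eventually.of_forall fun r => by simp
  | add x y _ _ hx hy =>
    intro p
    filter_upwards [hx p, hy p] with q h1 h2
    filter_upwards [h1, h2] with r h1 h2
    simp only [Pi.sub_apply, Pi.add_apply] at h1 h2 ⊢
    linear_combination h1 + h2
  | smul c x _ hx =>
    intro p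
    filter_upwards [hx p] with q h1
    filter_upwards [h1] with r h1
    simp only [Pi.sub_apply, Pi.smul_apply, smul_eq_mul] at h1 ⊢
    linear_combination c * h1

theorem G7_part {γ : X → X → ℂ} (hγ : Coc γ) {s : X → ℂ} (hs : ∀ p, SmAt (γ p - s) p)
    (L : ℂ →L[ℝ] ℝ) : Fam (fun p q => (L (γ p q - s q) : ℂ)) ∧
      Coc (fun p q => (L (γ p q - s q) : ℂ)) := by
  have hc : Coc (fun p q => (L (γ p q - s q) : ℂ)) := fun p => (hγ p).mono fun q hq =>
    hq.mono fun y hy => by
      simp only [Pi.sub_apply] at hy ⊢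
      rw [← Complex.ofReal_sub, ← Complex.ofReal_sub, ← map_sub, ← map_sub, sub_sub_sub_cancel_right,
        sub_sub_sub_cancel_right, hy]
  refine ⟨⟨fun p => (hs p).comp' (φ := fun z => (L z : ℂ))
    (Complex.ofRealCLM.contDiff.comp L.contDiff), fun p => (hc p).mono fun q hq => ?_⟩, hc⟩
  exact (holAt_const _).congr (EventuallyEq.symm hq)

theorem exists_gen [ConnectedSpace X] (hb : firstBetti X = 1) : ∃ τ : X → X → ℝ,
    Fam (fun p q => (τ p q : ℂ)) ∧ Coc (fun p q => (τ p q : ℂ)) ∧
      ¬ ∃ s : X → ℂ, ∀ p, ConstAt ((fun q => (τ p q : ℂ)) - s) p := by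
  obtain ⟨v, hv, -⟩ := finrank_eq_one_iff'.1 hb
  obtain ⟨γ, rfl⟩ := ((Bc X).submoduleOf (Zc X)).mkQ_surjective v
  have hγ : Coc γ.1 := G7_zc γ.2
  obtain ⟨s, hs⟩ := exists_smooth (f := γ.1) fun p => (hγ p).mono fun q hq =>
    (smAt_const _).congr (EventuallyEq.symm hq)
  by_contra hcon
  push Not at hcon
  obtain ⟨a1, a2⟩ := G7_part hγ hs Complex.reCLM
  obtain ⟨b1, b2⟩ := G7_part hγ hs Complex.imCLM
  obtain ⟨s1, h1⟩ := hcon (fun p q => Complex.reCLM (γ.1 p q - s q)) a1 a2
  obtain ⟨s2, h2⟩ := hcon (fun p q => Complex.imCLM (γ.1 p q - s q)) b1 b2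
  refine hv ?_
  rw [Submodule.mkQ_apply, Submodule.Quotient.mk_eq_zero]
  refine Submodule.subset_span (s := {f : X → X → ℂ | ∃ s : X → ℂ, ∀ p, ConstAt (f p - s) p})
    ⟨fun q => s q + s1 q + s2 q * Complex.I, fun p => ?_⟩
  filter_upwards [h1 p, h2 p] with q e1 e2
  simp only [Pi.sub_apply, Complex.reCLM_apply, Complex.imCLM_apply] at e1 e2
  change γ.1 p q - (s q + s1 q + s2 q * Complex.I) = γ.1 p p - (s p + s1 p + s2 p * Complex.I)
  linear_combination e1 + e2 * Complex.I - Complex.re_add_im (γ.1 p q - s q) +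
    Complex.re_add_im (γ.1 p p - s p)

theorem G7_cst {f : X → ℂ} (hf : HolAt f p) (h : ∀ᶠ y in 𝓝 p, (f y).re ≤ (f p).re) :
    ConstAt f p := by
  have hp := mem_chart_source C2 p
  have e := (chartAt C2 p).left_inv hp
  have h1 := const_of_max hf (by
    simp only [Function.comp_apply, e]
    exact ((chartAt C2 p).tendsto_symm hp).eventually h)
  filter_upwards [((chartAt C2 p).continuousAt hp).tendsto.eventually h1,
    (chartAt C2 p).eventually_left_inverse hp] with y b1 b2
  simpa only [Function.comp_apply, e, b2] using b1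

theorem G7_ev {f : X → ℂ} (hf : HolAt f p) : ∀ᶠ q in 𝓝 p, HolAt f q := by
  obtain ⟨m, Q, -, hQ, -⟩ := exists_atf (X := X) (fun _ => univ) fun _ => univ_mem
  obtain ⟨b, hp⟩ := hQ.cover p
  have h := (((hQ.isCh b).hol p hp f).1 hf).eventually_analyticAt
  filter_upwards [((Q b).continuousAt hp).eventually h, (Q b).open_source.mem_nhds hp]
    with q h1 h2 using ((hQ.isCh b).hol q h2 f).2 h1

theorem G7_re [ConnectedSpace X] {S : X → ℝ} {F : X → X → ℂ} (hF : ∀ x, HolAt (F x) x)
    (hS : ∀ x, ∀ᶠ y in 𝓝 x, S y = (F x y).re) (x : X) : ConstAt (F x) x := by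
  have hc : Continuous S := continuous_iff_continuousAt.2 fun y =>
    (Complex.continuous_re.continuousAt.comp (hF y).continuousAt).congr (EventuallyEq.symm (hS y))
  obtain ⟨x₀, -, h0⟩ := isCompact_univ.exists_isMaxOn univ_nonempty hc.continuousOn
  have key : ∀ y, S y = S x₀ → ConstAt (F y) y := fun y hy => by
    refine G7_cst (hF y) ((hS y).mono fun z h2 => ?_)
    rw [← h2, ← (hS y).self_of_nhds, hy]
    exact h0 (mem_univ _)
  have hcl : IsClopen {y | S y = S x₀} := by
    refine ⟨isClosed_eq hc continuous_const, isOpen_iff_mem_nhds.2 fun y hy => ?_⟩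
    filter_upwards [hS y, key y hy] with z h1 h2
    have h3 : S y = S x₀ := hy
    show S z = S x₀
    rw [h1, h2, ← (hS y).self_of_nhds, h3]
  have h1 : x ∈ {y | S y = S x₀} := by
    rw [hcl.eq_univ ⟨x₀, rfl⟩]
    exact mem_univ x
  exact key x h1

theorem gen_nonflat [ConnectedSpace X] (hb : firstBetti X = 1) {τ : X → X → ℝ}
    (h : Coc fun p q => (τ p q : ℂ)) {H : X → X → ℂ}
    (hH : ∀ p, HolAt (H p) p ∧ ∀ᶠ q in 𝓝 p, (H p q).re = τ p q) (p : X) :
    ConstAt (fun q => (τ p q : ℂ)) p := by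
  have hK : ∀ p, ∀ᶠ q in 𝓝 p, ConstAt (H p - H q) q := fun p => by
    filter_upwards [G7_ev (hH p).1, (hH p).2.eventually_nhds, h p] with q h1 h2 h3
    refine G7_cst (h1.sub (hH q).1) ?_
    filter_upwards [h2, (hH q).2, h3] with y b1 b2 b3
    have b4 : τ p y - τ q y = τ p q - τ q q := by
      simp only [Pi.sub_apply] at b3
      exact_mod_cast b3
    simp only [Pi.sub_apply, Complex.sub_re]
    rw [b1, b2, b4, h2.self_of_nhds, (hH q).2.self_of_nhds]
  obtain ⟨α, β, S, hne, hS⟩ := betti_dep hb (f := H)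
    (f' := fun x y => (starRingEnd ℂ) (H x y)) hK fun p => (hK p).mono fun q hq =>
      hq.mono fun y hy => by simpa using congrArg (starRingEnd ℂ) hy
  have key : ∀ μ : ℂ, μ * α + (starRingEnd ℂ) (μ * β) ≠ 0 → ∀ x, ConstAt (H x) x :=
    fun μ hμ x => by
    have := G7_re (S := fun y => (μ * S y).re)
      (F := fun x z => (μ * α + (starRingEnd ℂ) (μ * β)) * H x z - μ * (α * H x x +
        β * (starRingEnd ℂ) (H x x) - S x))
      (fun x => ((holAt_const _).mul (hH x).1).sub (holAt_const _))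
      (fun x => (hS x).mono fun y hy => by
        simp only [Pi.sub_apply, Pi.add_apply, Pi.smul_apply, smul_eq_mul] at hy
        rw [← hy]
        simp only [Complex.sub_re, Complex.mul_re, Complex.add_re, Complex.add_im, Complex.mul_im,
          Complex.conj_re, Complex.conj_im, Complex.sub_im]
        ring) x
    exact this.mono fun z hz => mul_left_cancel₀ hμ (sub_left_injective hz)
  have hcst : ∀ x, ConstAt (H x) x := by
    by_cases h1 : 1 * α + (starRingEnd ℂ) (1 * β) = 0
    · refine key Complex.I fun h2 => ?_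
      rw [map_mul, Complex.conj_I] at h2
      rw [one_mul, one_mul] at h1
      have h3 : α = 0 := by
        linear_combination h1 / 2 - Complex.I * h2 / 2 +
          (α - (starRingEnd ℂ) β) / 2 * Complex.I_mul_I
      rw [h3, zero_add, map_eq_zero] at h1
      exact hne.elim (fun h => h h3) fun h => h h1
    · exact key 1 h1
  filter_upwards [hcst p, (hH p).2] with q b1 b2
  rw [← b2, b1, (hH p).2.self_of_nhds]

end Vale.Agent.P267
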