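import Vale.Agent.P267G.G6
import Vale.Agent.P267G.G7
import Vale.Agent.P267H.HD

/-! P267, irregularity: the theorem. -/

open scoped Manifold ContDiff Topology
open Filter Metric Set

noncomputable section

namespace Vale.Agent.P267

set_option linter.unusedSectionVars false

variable {X : Type} [TopologicalSpace X] [ChartedSpace C2 X] [T2Space X] [CompactSpace X]
  [IsManifold 𝓘(ℂ, C2) ω X] {m : ℕ} {Q : Fin m → OpenPartialHomeomorph X C2}
  {ρ : Fin m → X → ℝ} {a a' : X → X → ℂ} {P P' : OpenPartialHomeomorph X C2} {p : X}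

theorem G_z1 {f : X → X → ℂ} (hf : f ∈ Z1 id (1 : X → X → ℂ)) :
    ∀ p, ∀ᶠ q in 𝓝 p, HolAt (f p - f q) q := by
  induction hf using Submodule.span_induction with
  | mem x hx => exact fun p => (hx.2 p).mono fun q hq => by simpa using hq
  | zero => exact fun p => .of_forall fun q => (holAt_const 0).congr (.of_forall fun _ => by simp)
  | add x y _ _ hx hy =>
    exact fun p => ((hx p).and (hy p)).mono fun q hq =>
      (hq.1.add hq.2).congr (.of_forall fun r => by simp; ring)
  | smul c x _ hx =>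
    exact fun p => (hx p).mono fun q hq =>
      ((holAt_const c).mul hq).congr (.of_forall fun r => by simp; ring)

theorem G_hol {f : X → ℂ} (h : ConstAt f p) : HolAt f p :=
  (holAt_const (f p)).congr (EventuallyEq.symm h)

theorem G_non [ConnectedSpace X] (hb : firstBetti X = 1) {τ : X → X → ℝ}
    (h : Coc fun p q => (τ p q : ℂ)) (hn : ¬ ∃ s : X → ℂ, ∀ p, ConstAt ((fun q => (τ p q : ℂ)) - s) p)
    (u : X → ℝ) {H : X → X → ℂ}
    (hH : ∀ p, HolAt (H p) p ∧ ∀ᶠ q in 𝓝 p, (H p q).re = τ p q - u q) : False :=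
  hn ⟨fun q => u q, fun p => (gen_nonflat hb (τ := fun p q => τ p q - u q)
    (fun p => (h p).mono fun q hq => hq.mono fun r hr => by
      simp only [Pi.sub_apply] at hr ⊢
      push_cast
      linear_combination hr) hH p).mono fun q hq => by simpa using hq⟩

theorem q_one [ConnectedSpace X] (hb : firstBetti X = 1) (hZ : PZ X) :
    Module.finrank ℂ (H1 id (1 : X → X → ℂ)) = 1 := by
  obtain ⟨τ, t1, t2, t3⟩ := exists_gen hb
  obtain ⟨m, Q, -, hQ, -⟩ := exists_atf (X := X) (fun _ => univ) fun _ => univ_mem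
  obtain ⟨ρ, hρ, hE⟩ := hQ.exact
  obtain ⟨u', d, u1, u2⟩ := hE _ (t1.trf_sm hQ hρ)
  have hd : d ≠ 0 := fun hd => by
    have h1 := t1.lin t1 0 (hQ.smAt u1)
    obtain ⟨H, h2, -⟩ := h1.split hQ (h1.flat hQ hρ hZ fun x => by
      rw [t1.trf_lin t1 hρ hQ 0 u1]
      linarith [u2 x])
    exact G_non hb t2 t3 u' fun p => ⟨(h2 p).1, (h2 p).2.mono fun q hq => by simpa using hq⟩
  refine finrank_eq_one_iff'.2 ⟨Submodule.Quotient.mk ⟨fun p q => (τ p q : ℂ),
    Submodule.subset_span ⟨rfl, fun p => (t1.hol p).mono fun q hq => by simpa using hq⟩⟩,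
    fun h0 => ?_, fun w => ?_⟩
  · obtain ⟨s, -, hs⟩ := B1_mem
      ((Submodule.Quotient.mk_eq_zero ((B1 id 1).submoduleOf (Z1 id 1))).1 h0)
    exact G_non hb t2 t3 (fun q => (s q).re) fun p => ⟨hs p, .of_forall fun q => by simp⟩
  obtain ⟨⟨f, hf⟩, rfl⟩ := Submodule.Quotient.mk_surjective _ w
  have f1 := G_z1 hf
  obtain ⟨s, hs⟩ := exists_smooth fun p => (f1 p).mono fun q hq => hq.smAt
  have a1 : Fam fun p => f p - s := ⟨hs, fun p => (f1 p).mono fun q hq => by simpa using hq⟩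
  obtain ⟨u, e, v1, v2⟩ := hE _ (a1.trf_sm hQ hρ)
  have v3 : ∀ b, ContDiffOn ℝ ∞ ((fun x => u x + -e / d * u' x) ∘ (Q b).symm) (Q b).target :=
    fun b => (v1 b).add (contDiffOn_const.mul (u1 b))
  have a2 := a1.lin t1 (-e / d) (hQ.smAt v3)
  obtain ⟨H, h2, h3⟩ := a2.split hQ (a2.flat hQ hρ hZ fun x => by
    rw [a1.trf_lin t1 hρ hQ _ v3, ← v2, ← u2]
    have e1 : pop Q ρ (fun b => (fun x => u x + -e / d * u' x) ∘ (Q b).symm) x =
        -e / d * pop Q ρ (fun b => u' ∘ (Q b).symm) x + pop Q ρ (fun b => u ∘ (Q b).symm) x := by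
      simp only [pop, Finset.mul_sum, ← Finset.sum_add_distrib]
      refine Finset.sum_congr rfl fun b _ => ?_
      rcases eq_or_ne (ρ b x) 0 with h0 | h0
      · simp [h0]
      have h1 := (Q b).open_target.mem_nhds
        ((Q b).map_source (hρ.supp b (subset_tsupport _ h0)))
      have h4 := DB_lin ((u1 b).contDiffAt h1) ((v1 b).contDiffAt h1) (-e / d)
      have h5 : (fun x => u x + -e / d * u' x) ∘ (Q b).symm =
          fun y => -e / d * (u' ∘ (Q b).symm) y + (u ∘ (Q b).symm) y := funext fun y => add_comm _ _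
      rw [trc, trc, trc, h5, h4, h4]
      ring
    rw [e1]
    field_simp
    ring)
  obtain ⟨α, β, S, h4, h5⟩ := betti_dep hb h3 t2
  have hα : α ≠ 0 := fun hα => t3 ⟨β⁻¹ • S, fun p => (h5 p).mono fun q hq => by
    have hβ := h4.resolve_left fun e => e hα
    simp only [hα, zero_smul, zero_add, Pi.sub_apply, Pi.smul_apply, smul_eq_mul] at hq ⊢
    field_simp
    linear_combination hq⟩
  refine ⟨(e / d : ℝ) - β / α, ((Submodule.Quotient.eq _).2 ?_).symm⟩
  refine Submodule.subset_span ⟨fun q => s q + (u q + -e / d * u' q : ℝ) + S q / α, rfl, fun p =>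
    ((h2 p).1.add ((holAt_const α⁻¹).mul (G_hol (h5 p)))).congr (.of_forall fun q => ?_)⟩
  simp only [Pi.add_apply, Pi.mul_apply, Pi.sub_apply, Pi.smul_apply, smul_eq_mul, Pi.one_apply,
    Submodule.coe_subtype, AddSubgroupClass.coe_sub, SetLike.val_smul]
  push_cast
  field_simp
  ring

end Vale.Agent.P267
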